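import Mathlib

/-!
# Row 265, commutative algebra toolbox (helper60): the derivation lemma

`P` a commutative `ℚ`-algebra, `J = (y_j)`, derivations `d i` with `d i (y j) ≡ δ_ij mod J`.
If a homogeneous form `F` of degree `m` has `F(y) ∈ J^(m+1) + I^(n+m)`, then every coefficient
of `F` lies in `J + I^n` (`coeff_mem_of_eval_mem`).  Special case `I = J`/`I = ⊥`: `gr_J = Sym`.
-/

set_option autoImplicit false

namespace Crest.Agent.N265.CA

open MvPolynomial

section Der

variable {R P : Type*} [CommRing R] [CommRing P] [Algebra R P]

/-- a derivation lowers the `I`-adic order by at most one -/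
theorem der_mem_pow (D : Derivation R P P) (I : Ideal P) (n : ℕ) {x : P} (hx : x ∈ I ^ (n + 1)) :
    D x ∈ I ^ n := by
  induction n generalizing x with
  | zero => simp
  | succ n ih =>
    rw [pow_succ] at hx
    refine Submodule.mul_induction_on hx ?_ ?_
    · intro a ha b hb
      rw [D.leibniz, smul_eq_mul, smul_eq_mul]
      refine Ideal.add_mem _ (Ideal.mul_mem_right _ _ ha) ?_
      rw [pow_succ']
      exact Ideal.mul_mem_mul hb (ih ha)
    · intro a b ha hb
      rw [map_add]
      exact Ideal.add_mem _ ha hb


variable {ι : Type*}

/-- apply a derivation to the coefficients of a polynomial -/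
noncomputable def derCoeff (D : Derivation R P P) (F : MvPolynomial ι P) : MvPolynomial ι P :=
  ∑ α ∈ F.support, monomial α (D (coeff α F))

theorem coeff_derCoeff (D : Derivation R P P) (F : MvPolynomial ι P) (α : ι →₀ ℕ) :
    coeff α (derCoeff D F) = D (coeff α F) := by
  classical
  unfold derCoeff
  rw [coeff_sum]
  simp only [coeff_monomial]
  rw [Finset.sum_ite_eq']
  split_ifs with h
  · rfl
  · rw [notMem_support_iff.1 h, map_zero]

theorem derCoeff_isHomogeneous (D : Derivation R P P) {F : MvPolynomial ι P} {m : ℕ}
    (hF : F.IsHomogeneous m) : (derCoeff D F).IsHomogeneous m := by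
  intro α hα
  refine hF fun h => hα ?_
  rw [coeff_derCoeff, h, map_zero]

/-- chain rule for polynomials with coefficients in `P` -/
theorem der_eval [Fintype ι] (D : Derivation R P P) (y : ι → P) (F : MvPolynomial ι P) :
    D (eval y F) = eval y (derCoeff D F) + ∑ j, eval y (pderiv j F) * D (y j) := by
  classical
  induction F using MvPolynomial.induction_on with
  | C a =>
    have : derCoeff D (C a : MvPolynomial ι P) = C (D a) := by
      ext α
      rw [coeff_derCoeff, coeff_C, coeff_C]
      split_ifs <;> simp
    simp [this]
  | add p q hp hq =>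
    have : derCoeff D (p + q) = derCoeff D p + derCoeff D q := by
      ext α
      simp [coeff_derCoeff]
    simp only [this, map_add, hp, hq, add_mul, Finset.sum_add_distrib]
    ring
  | mul_X p i hp =>
    have : derCoeff D (p * X i) = derCoeff D p * X i := by
      ext α
      rw [coeff_derCoeff, coeff_mul_X', coeff_mul_X']
      split_ifs <;> simp [coeff_derCoeff]
    have h2 : ∀ j, eval y (pderiv j (p * X i)) * D (y j) =
        eval y (pderiv j p) * D (y j) * y i + if i = j then eval y p * D (y i) else 0 := by
      intro j
      rw [pderiv_mul, map_add, map_mul, map_mul, eval_X, pderiv_X]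
      by_cases h : i = j
      · subst h
        simp
        ring
      · simp [h]
        ring
    simp only [this, map_mul, eval_X, D.leibniz, smul_eq_mul, hp, h2, Finset.sum_add_distrib,
      Finset.sum_ite_eq, Finset.mem_univ, if_true, ← Finset.sum_mul]
    ring

/-- the value of a form of degree `m` at elements of `J` lies in `J ^ m` -/
theorem eval_mem_pow {J : Ideal P} {y : ι → P} (hy : ∀ j, y j ∈ J) {F : MvPolynomial ι P} {m : ℕ}
    (hF : F.IsHomogeneous m) : eval y F ∈ J ^ m := by
  classical
  rw [eval_eq]
  refine Ideal.sum_mem _ fun α hα => Ideal.mul_mem_left _ _ ?_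
  have hdeg : ∑ i ∈ α.support, α i = m := by
    have := hF (mem_support_iff.1 hα)
    simpa [Finsupp.weight_apply, Finsupp.sum] using this
  rw [← hdeg, ← Finset.prod_pow_eq_pow_sum]
  exact Ideal.prod_mem_prod fun i _ => Ideal.pow_mem_pow (hy i) _




end Der

end Crest.Agent.N265.CA
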